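import Crest.Agent.R285.Basic

/-!
# Row 285 (S0430): Flow
Global flows of `C¹` vector fields with linear growth.
Suggested route: for a globally Lipschitz field use Picard–Lindelöf on `[-T,T]` for all `T`
(`IsPicardLindelof`, `ODE_solution_unique`), or iterate a short-time solution; for the general case cut off
`b` outside a large ball with a `ContDiffBump` and use the a-priori bound from Gronwall
(`norm_le_gronwallBound_of_norm_deriv_right_le`).  Continuity in `(t,x)`: `dist_le_of_trajectories_ODE`.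
-/

set_option autoImplicit false

open MeasureTheory ProbabilityTheory Filter Topology
open scoped RealInnerProductSpace

noncomputable section

namespace Crest.Agent.R285

variable {ι : Type} [Fintype ι] {b : E ι → E ι} {X : ℝ → E ι → E ι}

namespace FlowAux

open Set Metric

theorem lipOn_ball (hb : ContDiff ℝ 1 b) (R : ℝ) :
    ∃ K : NNReal, LipschitzOnWith K b (closedBall 0 R) := by
  obtain ⟨C, hC⟩ := (isCompact_closedBall (0 : E ι) R).exists_bound_of_continuousOn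
    (hb.continuous_fderiv one_ne_zero).continuousOn
  refine ⟨C.toNNReal, (convex_closedBall 0 R).lipschitzOnWith_of_nnnorm_fderiv_le
    (fun x _ => hb.differentiable one_ne_zero x) fun x hx => ?_⟩
  rw [← NNReal.coe_le_coe, coe_nnnorm]
  exact (hC x hx).trans (Real.le_coe_toNNReal C)

theorem gron_fwd {f f' : ℝ → E ι} {C t : ℝ} (ht : 0 ≤ t)
    (hf : ∀ s ∈ Icc 0 t, HasDerivAt f (f' s) s) (hb : ∀ s ∈ Icc 0 t, ‖f' s‖ ≤ C * (1 + ‖f s‖)) :
    1 + ‖f t‖ ≤ (1 + ‖f 0‖) * Real.exp (C * t) := by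
  have h := norm_le_gronwallBound_of_norm_deriv_right_le (f := f) (f' := f') (δ := ‖f 0‖) (K := C)
    (ε := C) (a := 0) (b := t) (fun s hs => (hf s hs).continuousAt.continuousWithinAt)
    (fun s hs => (hf s (Ico_subset_Icc_self hs)).hasDerivWithinAt) le_rfl
    (fun s hs => by have := hb s (Ico_subset_Icc_self hs); linarith) t ⟨ht, le_rfl⟩
  rw [sub_zero] at h
  by_cases hC : C = 0
  · subst hC
    rw [gronwallBound_K0] at h
    simp only [zero_mul, add_zero, Real.exp_zero, mul_one] at h ⊢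
    linarith
  · rw [gronwallBound_of_K_ne_0 hC, div_self hC] at h
    simp only at h
    linarith

theorem gron {f f' : ℝ → E ι} {C t : ℝ}
    (hf : ∀ s, |s| ≤ |t| → HasDerivAt f (f' s) s)
    (hb : ∀ s, |s| ≤ |t| → ‖f' s‖ ≤ C * (1 + ‖f s‖)) :
    1 + ‖f t‖ ≤ (1 + ‖f 0‖) * Real.exp (C * |t|) := by
  rcases le_total 0 t with ht | ht
  · have hs : ∀ s ∈ Icc 0 t, |s| ≤ |t| := fun s hs => by
      rw [abs_of_nonneg hs.1, abs_of_nonneg ht]; exact hs.2
    rw [abs_of_nonneg ht]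
    exact gron_fwd ht (fun s h => hf s (hs s h)) fun s h => hb s (hs s h)
  · have hs : ∀ s ∈ Icc 0 (-t), |(-s)| ≤ |t| := fun s hs => by
      rw [abs_neg, abs_of_nonneg hs.1, abs_of_nonpos ht]; exact hs.2
    have h := gron_fwd (f := fun s => f (-s)) (f' := fun s => -f' (-s)) (C := C) (t := -t)
      (by linarith) (fun s h => by
        have := (hf (-s) (hs s h)).scomp s (hasDerivAt_neg s)
        simpa [Function.comp_def] using this) (fun s h => by
        rw [norm_neg]; exact hb (-s) (hs s h))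
    rw [abs_of_nonpos ht]
    simpa using h

theorem uniq (hb : ContDiff ℝ 1 b) {f g : ℝ → E ι} {T : ℝ}
    (hf : ∀ s, |s| < T → HasDerivAt f (b (f s)) s) (hg : ∀ s, |s| < T → HasDerivAt g (b (g s)) s)
    (h0 : f 0 = g 0) {t : ℝ} (ht : |t| < T) : f t = g t := by
  obtain ⟨T', h1, h2⟩ := exists_between ht
  have hT' : 0 < T' := (abs_nonneg t).trans_lt h1
  have hs : ∀ s ∈ Icc (-T') T', |s| < T := fun s hs => (abs_le.2 hs).trans_lt h2
  have hfc : ContinuousOn f (Icc (-T') T') := fun s h =>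
    (hf s (hs s h)).continuousAt.continuousWithinAt
  have hgc : ContinuousOn g (Icc (-T') T') := fun s h =>
    (hg s (hs s h)).continuousAt.continuousWithinAt
  obtain ⟨R₁, hR₁⟩ := isCompact_Icc.exists_bound_of_continuousOn hfc
  obtain ⟨R₂, hR₂⟩ := isCompact_Icc.exists_bound_of_continuousOn hgc
  obtain ⟨K, hK⟩ := lipOn_ball hb (max R₁ R₂)
  exact ODE_solution_unique_of_mem_Icc (v := fun _ => b) (s := fun _ => closedBall 0 (max R₁ R₂))
    (K := K) (a := -T') (b := T') (t₀ := 0) (fun _ _ => hK) ⟨by linarith, hT'⟩ hfc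
    (fun s h => hf s (hs s (Ioo_subset_Icc_self h)))
    (fun s h => mem_closedBall_zero_iff.2
      ((hR₁ s (Ioo_subset_Icc_self h)).trans (le_max_left _ _))) hgc
    (fun s h => hg s (hs s (Ioo_subset_Icc_self h)))
    (fun s h => mem_closedBall_zero_iff.2
      ((hR₂ s (Ioo_subset_Icc_self h)).trans (le_max_right _ _))) h0 (abs_le.1 h1.le)

theorem growth_nonneg {C : ℝ} (hg : ∀ x, ‖b x‖ ≤ C * (1 + ‖x‖)) : 0 ≤ C := by
  have := (norm_nonneg _).trans (hg 0)
  simpa using this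

theorem exists_sol (hb : ContDiff ℝ 1 b) {C : ℝ} (hg : ∀ x, ‖b x‖ ≤ C * (1 + ‖x‖)) (x : E ι)
    {T : ℝ} (hT : 0 < T) :
    ∃ α : ℝ → E ι, α 0 = x ∧ ∀ s, |s| < T → HasDerivAt α (b (α s)) s := by
  have hC := growth_nonneg hg
  set R := (1 + ‖x‖) * Real.exp (C * T) with hR
  have hR0 : 0 < R := by positivity
  let φ : ContDiffBump (0 : E ι) := ⟨R, R + 1, hR0, by linarith⟩
  let c : E ι → E ι := fun y => φ y • b y
  have hc : ContDiff ℝ 1 c := φ.contDiff.smul hb
  have hcb : ∀ y, ‖c y‖ ≤ ‖b y‖ := fun y => by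
    simp only [c, norm_smul, Real.norm_eq_abs, abs_of_nonneg φ.nonneg]
    exact mul_le_of_le_one_left (norm_nonneg _) φ.le_one
  have hcL : ∀ y, ‖c y‖ ≤ C * (2 + R) := fun y => by
    by_cases hy : ‖y‖ ≤ R + 1
    · refine (hcb y).trans ((hg y).trans (mul_le_mul_of_nonneg_left (by linarith) hC))
    · have : φ y = 0 := φ.zero_of_le_dist (by
        rw [dist_zero_right]; exact (not_le.1 hy).le)
      simp only [c, this, zero_smul, norm_zero]
      positivity
  let L : NNReal := ⟨C * (2 + R), by positivity⟩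
  let a : NNReal := ⟨C * (2 + R) * T, by positivity⟩
  obtain ⟨K, hK⟩ := lipOn_ball hc (‖x‖ + a)
  have hpl : IsPicardLindelof (fun _ => c) (tmin := -T) (tmax := T) ⟨0, by linarith, hT.le⟩ x a 0
      L K :=
    { lipschitzOnWith := fun _ _ => hK.mono fun y hy => by
        rw [mem_closedBall_zero_iff]
        have h1 := mem_closedBall_iff_norm.1 hy
        have h2 := norm_add_le x (y - x)
        rw [add_sub_cancel] at h2
        linarith
      continuousOn := fun _ _ => continuousOn_const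
      norm_le := fun _ _ y _ => hcL y
      mul_max_le := by
        change C * (2 + R) * max (T - 0) (0 - -T) ≤ C * (2 + R) * T - 0
        simp }
  obtain ⟨α, h0, hα⟩ := hpl.exists_eq_forall_mem_Icc_hasDerivWithinAt₀
  have hα' : ∀ s, |s| < T → HasDerivAt α (c (α s)) s := fun s hs =>
    (hα s (abs_le.1 hs.le)).hasDerivAt (Icc_mem_nhds (abs_lt.1 hs).1 (abs_lt.1 hs).2)
  have h0' : α 0 = x := h0
  refine ⟨α, h0', fun s hs => ?_⟩
  have h1 := gron (f := α) (f' := fun u => c (α u)) (C := C) (t := s)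
    (fun u hu => hα' u (hu.trans_lt hs)) fun u _ => (hcb _).trans (hg _)
  have h2 : Real.exp (C * |s|) ≤ Real.exp (C * T) :=
    Real.exp_le_exp.2 (mul_le_mul_of_nonneg_left hs.le hC)
  have h3 : ‖α s‖ ≤ R := by
    rw [h0'] at h1
    have := mul_le_mul_of_nonneg_left h2 (show 0 ≤ 1 + ‖x‖ by positivity)
    linarith
  have h4 : φ (α s) = 1 := φ.one_of_mem_closedBall (mem_closedBall_zero_iff.2 h3)
  have h5 := hα' s hs
  simpa only [c, h4, one_smul] using h5

theorem exists_global (hb : ContDiff ℝ 1 b) {C : ℝ} (hg : ∀ x, ‖b x‖ ≤ C * (1 + ‖x‖)) (x : E ι) :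
    ∃ α : ℝ → E ι, α 0 = x ∧ ∀ s, HasDerivAt α (b (α s)) s := by
  have h : ∀ T : ℝ, ∃ α : ℝ → E ι, α 0 = x ∧ ∀ s, |s| < |T| + 1 → HasDerivAt α (b (α s)) s :=
    fun T => exists_sol hb hg x (by positivity)
  choose α h0 hα using h
  have key : ∀ s T, |s| < |T| + 1 → α s s = α T s := fun s T hs =>
    uniq hb (T := min (|s| + 1) (|T| + 1)) (fun u hu => hα s u (hu.trans_le (min_le_left _ _)))
      (fun u hu => hα T u (hu.trans_le (min_le_right _ _))) ((h0 s).trans (h0 T).symm)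
      (lt_min (by linarith) hs)
  refine ⟨fun s => α s s, h0 0, fun s => ?_⟩
  refine (hα s s (by linarith)).congr_of_eventuallyEq ?_
  have : ∀ᶠ u in 𝓝 s, |u| < |s| + 1 :=
    continuous_abs.continuousAt.eventually (gt_mem_nhds (by linarith))
  filter_upwards [this] with u hu using key u s hu

theorem dist_fwd {K : NNReal} {S : Set (E ι)} (hK : LipschitzOnWith K b S) {f g : ℝ → E ι} {t : ℝ}
    (ht : 0 ≤ t) (hf : ∀ s, HasDerivAt f (b (f s)) s) (hg : ∀ s, HasDerivAt g (b (g s)) s)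
    (hfS : ∀ s ∈ Icc 0 t, f s ∈ S) (hgS : ∀ s ∈ Icc 0 t, g s ∈ S) :
    ‖f t - g t‖ ≤ Real.exp (K * t) * ‖f 0 - g 0‖ := by
  have h := dist_le_of_trajectories_ODE_of_mem (v := fun _ => b) (s := fun _ => S) (K := K)
    (a := 0) (b := t) (f := f) (g := g) (δ := dist (f 0) (g 0)) (fun _ _ => hK)
    (fun s _ => (hf s).continuousAt.continuousWithinAt) (fun s _ => (hf s).hasDerivWithinAt)
    (fun s hs => hfS s (Ico_subset_Icc_self hs))
    (fun s _ => (hg s).continuousAt.continuousWithinAt) (fun s _ => (hg s).hasDerivWithinAt)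
    (fun s hs => hgS s (Ico_subset_Icc_self hs)) le_rfl t ⟨ht, le_rfl⟩
  rwa [sub_zero, dist_eq_norm, dist_eq_norm, mul_comm] at h

theorem lip (hb : ContDiff ℝ 1 b) {C : ℝ} (hg : ∀ x, ‖b x‖ ≤ C * (1 + ‖x‖))
    (h0 : ∀ x, X 0 x = x) (hX : ∀ t x, HasDerivAt (fun s => X s x) (b (X t x)) t) (T R : ℝ) :
    ∃ L : ℝ, ∀ t, |t| ≤ T → ∀ x y, ‖x‖ ≤ R → ‖y‖ ≤ R → ‖X t x - X t y‖ ≤ L * ‖x - y‖ := by
  have hC := growth_nonneg hg
  obtain ⟨K, hK⟩ := lipOn_ball hb ((1 + R) * Real.exp (C * T))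
  have hmem : ∀ s, |s| ≤ T → ∀ x, ‖x‖ ≤ R →
      X s x ∈ closedBall (0 : E ι) ((1 + R) * Real.exp (C * T)) := by
    intro s hs x hx
    have h1 := gron (f := fun s => X s x) (f' := fun s => b (X s x)) (C := C) (t := s)
      (fun u _ => hX u x) fun u _ => hg _
    simp only [h0] at h1
    have h2 : Real.exp (C * |s|) ≤ Real.exp (C * T) :=
      Real.exp_le_exp.2 (mul_le_mul_of_nonneg_left hs hC)
    have h3 : (1 + ‖x‖) * Real.exp (C * |s|) ≤ (1 + R) * Real.exp (C * T) :=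
      mul_le_mul (by linarith) h2 (Real.exp_pos _).le (by linarith [norm_nonneg x])
    rw [mem_closedBall_zero_iff]
    linarith
  refine ⟨Real.exp (K * T), fun t ht x y hx hy => ?_⟩
  have hexp : Real.exp (K * |t|) * ‖x - y‖ ≤ Real.exp (K * T) * ‖x - y‖ :=
    mul_le_mul_of_nonneg_right (Real.exp_le_exp.2 (mul_le_mul_of_nonneg_left ht K.2))
      (norm_nonneg _)
  refine le_trans ?_ hexp
  rcases le_total 0 t with h | h
  · have hs : ∀ s ∈ Icc 0 t, |s| ≤ T := fun s hs => by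
      rw [abs_of_nonneg hs.1]; exact hs.2.trans ((le_abs_self t).trans ht)
    have := dist_fwd hK h (fun s => hX s x) (fun s => hX s y) (fun s h => hmem s (hs s h) x hx)
      fun s h => hmem s (hs s h) y hy
    simp only [h0] at this
    rwa [abs_of_nonneg h]
  · have hs : ∀ s ∈ Icc 0 (-t), |(-s)| ≤ T := fun s hs => by
      rw [abs_neg, abs_of_nonneg hs.1]; exact hs.2.trans ((neg_le_abs t).trans ht)
    have hd : ∀ x s, HasDerivAt (fun u => X (-u) x) ((fun z => -b z) (X (-s) x)) s := fun x s => by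
      have := (hX (-s) x).scomp s (hasDerivAt_neg s)
      simpa [Function.comp_def] using this
    have := dist_fwd (b := fun z => -b z) hK.neg (t := -t) (by linarith) (hd x) (hd y)
      (fun s h => hmem (-s) (hs s h) x hx) fun s h => hmem (-s) (hs s h) y hy
    simp only [neg_neg, neg_zero, h0] at this
    rwa [abs_of_nonpos h]

end FlowAux

open FlowAux

theorem exists_flow (hb : ContDiff ℝ 1 b) (hg : ∃ C, ∀ x, ‖b x‖ ≤ C * (1 + ‖x‖)) :
    ∃ X, IsFlow b X := by
  obtain ⟨C, hg⟩ := hg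
  choose α h0 hα using exists_global hb hg
  refine ⟨fun t x => α x t, ?_, h0, fun t x => hα x t⟩
  rw [continuous_iff_continuousAt]
  rintro ⟨t₀, x₀⟩
  obtain ⟨L, hL⟩ := lip (X := fun t x => α x t) hb hg h0 (fun t x => hα x t) (|t₀| + 1) (‖x₀‖ + 1)
  have h1 : Tendsto (fun p : ℝ × E ι => α x₀ p.1) (𝓝 (t₀, x₀)) (𝓝 (α x₀ t₀)) :=
    ContinuousAt.comp (g := α x₀) (f := Prod.fst) (x := (t₀, x₀)) (hα x₀ t₀).continuousAt
      continuous_fst.continuousAt
  have h2 : Tendsto (fun p : ℝ × E ι => α p.2 p.1 - α x₀ p.1) (𝓝 (t₀, x₀)) (𝓝 0) := by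
    have h3 : Tendsto (fun p : ℝ × E ι => L * ‖p.2 - x₀‖) (𝓝 (t₀, x₀)) (𝓝 0) := by
      have : Continuous fun p : ℝ × E ι => L * ‖p.2 - x₀‖ := by fun_prop
      simpa using this.tendsto (t₀, x₀)
    refine squeeze_zero_norm' ?_ h3
    have e1 : ∀ᶠ p : ℝ × E ι in 𝓝 (t₀, x₀), |p.1| < |t₀| + 1 :=
      (continuous_fst.abs.continuousAt (x := (t₀, x₀))).eventually (gt_mem_nhds (by linarith))
    have e2 : ∀ᶠ p : ℝ × E ι in 𝓝 (t₀, x₀), ‖p.2‖ < ‖x₀‖ + 1 :=
      (continuous_snd.norm.continuousAt (x := (t₀, x₀))).eventually (gt_mem_nhds (by linarith))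
    filter_upwards [e1, e2] with p hp1 hp2 using hL p.1 hp1.le p.2 x₀ hp2.le (by linarith)
  have h4 := h2.add h1
  simp only [sub_add_cancel, zero_add] at h4
  exact h4

theorem IsFlow.add (hX : IsFlow b X) (hb : ContDiff ℝ 1 b) (s t : ℝ) (x : E ι) :
    X (s + t) x = X s (X t x) :=
  uniq hb (f := fun u => X (u + t) x) (g := fun u => X u (X t x)) (T := |s| + 1)
    (fun u _ => (hX.deriv (u + t) x).comp_add_const u t) (fun u _ => hX.deriv u _)
    (by simp [hX.zero]) (by linarith)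

/-- a-priori bound -/
theorem IsFlow.norm_le (hX : IsFlow b X) {C : ℝ} (hC : 0 ≤ C) (hg : ∀ x, ‖b x‖ ≤ C * (1 + ‖x‖))
    (t : ℝ) (x : E ι) : 1 + ‖X t x‖ ≤ (1 + ‖x‖) * Real.exp (C * |t|) := by
  have _ := hC
  have h1 := gron (f := fun s => X s x) (f' := fun s => b (X s x)) (C := C) (t := t)
    (fun u _ => hX.deriv u x) fun u _ => hg _
  simpa only [hX.zero] using h1

/-- local Lipschitz dependence on the initial point -/
theorem IsFlow.lipschitzOn (hX : IsFlow b X) (hb : ContDiff ℝ 1 b)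
    (hg : ∃ C, ∀ x, ‖b x‖ ≤ C * (1 + ‖x‖)) (T R : ℝ) :
    ∃ L : ℝ, ∀ t, |t| ≤ T → ∀ x y, ‖x‖ ≤ R → ‖y‖ ≤ R → ‖X t x - X t y‖ ≤ L * ‖x - y‖ := by
  obtain ⟨C, hg⟩ := hg
  exact lip hb hg hX.zero hX.deriv T R

lemma IsFlow.continuous (hX : IsFlow b X) (t : ℝ) : Continuous (X t) :=
  hX.cont.comp (continuous_const.prodMk continuous_id)


end Crest.Agent.R285
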