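import Crest.Agent.R285.Defs

/-!
# Row 285 (S0430): Basic
Algebra of `pair`, `fstL`, `sndL`, `inlL`, `inrL`, `adj`, `bas`, the chain maps and `Lip`.
-/

set_option autoImplicit false

open MeasureTheory ProbabilityTheory Filter Topology
open scoped RealInnerProductSpace

noncomputable section

namespace Crest.Agent.R285

variable {ι κ ζ α β : Type} [Fintype ι] [Fintype κ] [Fintype ζ] [Fintype α] [Fintype β]
variable {Y Y' : Type} [NormedAddCommGroup Y] [NormedSpace ℝ Y] [NormedAddCommGroup Y']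
  [NormedSpace ℝ Y']

@[simp] lemma pair_inl (x : E ι) (y : E κ) (i : ι) : pair x y (Sum.inl i) = x i := rfl
@[simp] lemma pair_inr (x : E ι) (y : E κ) (i : κ) : pair x y (Sum.inr i) = y i := rfl
@[simp] lemma fstL_coord (z : E (ι ⊕ κ)) (i : ι) : fstL z i = z (Sum.inl i) := rfl
@[simp] lemma sndL_coord (z : E (ι ⊕ κ)) (i : κ) : sndL z i = z (Sum.inr i) := rfl
@[simp] lemma fstL_pair (x : E ι) (y : E κ) : fstL (pair x y) = x := rfl
@[simp] lemma sndL_pair (x : E ι) (y : E κ) : sndL (pair x y) = y := rfl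
@[simp] lemma pair_fst_snd (z : E (ι ⊕ κ)) : pair (fstL z) (sndL z) = z := by ext i; cases i <;> rfl
@[simp] lemma inlL_apply (x : E ι) : (inlL x : E (ι ⊕ κ)) = pair x 0 := rfl
@[simp] lemma inrL_apply (y : E κ) : (inrL y : E (ι ⊕ κ)) = pair 0 y := rfl
@[simp] lemma pair_add (x x' : E ι) (y y' : E κ) :
    pair x y + pair x' y' = pair (x + x') (y + y') := by ext i; cases i <;> rfl
@[simp] lemma pair_sub (x x' : E ι) (y y' : E κ) :
    pair x y - pair x' y' = pair (x - x') (y - y') := by ext i; cases i <;> rfl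
@[simp] lemma pair_neg (x : E ι) (y : E κ) : -pair x y = pair (-x) (-y) := by ext i; cases i <;> rfl
@[simp] lemma pair_smul (c : ℝ) (x : E ι) (y : E κ) : c • pair x y = pair (c • x) (c • y) := by ext i; cases i <;> rfl
@[simp] lemma pair_zero : pair (0 : E ι) (0 : E κ) = 0 := by ext i; cases i <;> rfl
lemma pair_eq (x : E ι) (y : E κ) : pair x y = inlL x + inrL y := by simp
lemma norm_sq_pair (x : E ι) (y : E κ) : ‖pair x y‖ ^ 2 = ‖x‖ ^ 2 + ‖y‖ ^ 2 := by
  simp [EuclideanSpace.real_norm_sq_eq, Fintype.sum_sum_type]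
lemma norm_pair_le (x : E ι) (y : E κ) : ‖pair x y‖ ≤ ‖x‖ + ‖y‖ := by
  refine (sq_le_sq₀ (norm_nonneg _) (by positivity)).1 ?_
  rw [norm_sq_pair]
  nlinarith [mul_nonneg (norm_nonneg x) (norm_nonneg y)]
lemma norm_pair_zero_right (x : E ι) : ‖pair x (0 : E κ)‖ = ‖x‖ := by
  rw [← sq_eq_sq₀ (norm_nonneg _) (norm_nonneg _), norm_sq_pair]; simp
lemma norm_pair_zero_left (y : E κ) : ‖pair (0 : E ι) y‖ = ‖y‖ := by
  rw [← sq_eq_sq₀ (norm_nonneg _) (norm_nonneg _), norm_sq_pair]; simp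
lemma norm_fstL_apply_le (z : E (ι ⊕ κ)) : ‖fstL z‖ ≤ ‖z‖ := by
  refine (sq_le_sq₀ (norm_nonneg _) (norm_nonneg _)).1 ?_
  rw [← pair_fst_snd z, norm_sq_pair, pair_fst_snd]
  exact le_add_of_nonneg_right (sq_nonneg _)
lemma norm_sndL_apply_le (z : E (ι ⊕ κ)) : ‖sndL z‖ ≤ ‖z‖ := by
  refine (sq_le_sq₀ (norm_nonneg _) (norm_nonneg _)).1 ?_
  rw [← pair_fst_snd z, norm_sq_pair, pair_fst_snd]
  exact le_add_of_nonneg_left (sq_nonneg _)
lemma inner_pair (x x' : E ι) (y y' : E κ) : ⟪pair x y, pair x' y'⟫ = ⟪x, x'⟫ + ⟪y, y'⟫ := by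
  simp [PiLp.inner_apply, Fintype.sum_sum_type]
lemma norm_fstL_le : ‖(fstL : E (ι ⊕ κ) →L[ℝ] E ι)‖ ≤ 1 :=
  ContinuousLinearMap.opNorm_le_bound _ zero_le_one fun z => by
    simpa using norm_fstL_apply_le z
lemma norm_sndL_le : ‖(sndL : E (ι ⊕ κ) →L[ℝ] E κ)‖ ≤ 1 :=
  ContinuousLinearMap.opNorm_le_bound _ zero_le_one fun z => by
    simpa using norm_sndL_apply_le z
lemma norm_inlL_le : ‖(inlL : E ι →L[ℝ] E (ι ⊕ κ))‖ ≤ 1 :=
  ContinuousLinearMap.opNorm_le_bound _ zero_le_one fun z => by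
    simp [norm_pair_zero_right]
lemma norm_inrL_le : ‖(inrL : E κ →L[ℝ] E (ι ⊕ κ))‖ ≤ 1 :=
  ContinuousLinearMap.opNorm_le_bound _ zero_le_one fun z => by
    simp [norm_pair_zero_left]
@[fun_prop] lemma Continuous.pair' {X : Type} [TopologicalSpace X] {f : X → E ι} {g : X → E κ}
    (hf : Continuous f) (hg : Continuous g) : Continuous fun x => pair (f x) (g x) := by
  simp only [pair_eq]
  exact (inlL.continuous.comp hf).add (inrL.continuous.comp hg)
@[fun_prop] lemma Measurable.pair' {X : Type} [MeasurableSpace X] {f : X → E ι} {g : X → E κ}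
    (hf : Measurable f) (hg : Measurable g) : Measurable fun x => pair (f x) (g x) := by
  simp only [pair_eq]
  exact (inlL.continuous.measurable.comp hf).add (inrL.continuous.measurable.comp hg)
lemma bas_inl (a : ι) : (bas (Sum.inl a) : E (ι ⊕ κ)) = pair (bas a) 0 := by
  ext i; cases i <;> simp [bas]
  split_ifs <;> simp_all
lemma bas_inr (a : κ) : (bas (Sum.inr a) : E (ι ⊕ κ)) = pair 0 (bas a) := by
  ext i; cases i <;> simp [bas]
  split_ifs <;> simp_all

lemma inner_adj_left (M : E α →L[ℝ] E β) (y : E β) (x : E α) : ⟪adj M y, x⟫ = ⟪y, M x⟫ :=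
  ContinuousLinearMap.adjoint_inner_left M x y
lemma inner_adj_right (M : E α →L[ℝ] E β) (x : E α) (y : E β) : ⟪x, adj M y⟫ = ⟪M x, y⟫ :=
  ContinuousLinearMap.adjoint_inner_right M x y
@[simp] lemma adj_adj (M : E α →L[ℝ] E β) : adj (adj M) = M :=
  ContinuousLinearMap.adjoint_adjoint M
lemma adj_comp (M : E β →L[ℝ] E ι) (N : E α →L[ℝ] E β) : adj (M.comp N) = (adj N).comp (adj M) :=
  ContinuousLinearMap.adjoint_comp M N
lemma adj_add (M N : E α →L[ℝ] E β) : adj (M + N) = adj M + adj N := map_add _ M N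
lemma adj_sub (M N : E α →L[ℝ] E β) : adj (M - N) = adj M - adj N := map_sub _ M N
lemma adj_neg (M : E α →L[ℝ] E β) : adj (-M) = -adj M := map_neg _ M
lemma adj_smul (c : ℝ) (M : E α →L[ℝ] E β) : adj (c • M) = c • adj M := by simp [adj]
@[simp] lemma adj_zero : adj (0 : E α →L[ℝ] E β) = 0 := map_zero _
@[simp] lemma adj_id : adj (ContinuousLinearMap.id ℝ (E α)) = ContinuousLinearMap.id ℝ (E α) :=
  ContinuousLinearMap.adjoint_id
lemma adj_sum {I : Type} (s : Finset I) (M : I → (E α →L[ℝ] E β)) :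
    adj (∑ i ∈ s, M i) = ∑ i ∈ s, adj (M i) := map_sum _ M s
@[simp] lemma norm_adj (M : E α →L[ℝ] E β) : ‖adj M‖ = ‖M‖ :=
  LinearIsometryEquiv.norm_map _ M
@[simp] lemma adj_inlL : adj (inlL : E ι →L[ℝ] E (ι ⊕ κ)) = fstL := by
  refine ((ContinuousLinearMap.eq_adjoint_iff _ _).2 fun z x => ?_).symm
  rw [← pair_fst_snd z, inlL_apply, inner_pair]; simp
@[simp] lemma adj_inrL : adj (inrL : E κ →L[ℝ] E (ι ⊕ κ)) = sndL := by
  refine ((ContinuousLinearMap.eq_adjoint_iff _ _).2 fun z x => ?_).symm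
  rw [← pair_fst_snd z, inrL_apply, inner_pair]; simp
@[simp] lemma adj_fstL : adj (fstL : E (ι ⊕ κ) →L[ℝ] E ι) = inlL := by rw [← adj_inlL, adj_adj]
@[simp] lemma adj_sndL : adj (sndL : E (ι ⊕ κ) →L[ℝ] E κ) = inrL := by rw [← adj_inrL, adj_adj]
/-- the adjoint as a continuous linear map -/
lemma exists_adjL : ∃ A : (E α →L[ℝ] E β) →L[ℝ] (E β →L[ℝ] E α), ∀ M, A M = adj M :=
  ⟨LinearMap.toContinuousLinearMap ⟨⟨adj, adj_add⟩, adj_smul⟩, fun _ => rfl⟩
lemma adj_coord (M : E α →L[ℝ] E β) (a : α) (o : β) : adj M (bas o) a = M (bas a) o := by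
  have h : ∀ {ι : Type} [Fintype ι] (a : ι) (x : E ι), x a = ⟪bas a, x⟫ := fun a x => by
    simp [bas, EuclideanSpace.inner_single_left]
  rw [h a, h o, inner_adj_right, real_inner_comm]

open Classical in
lemma bas_coord (a a' : ι) : (bas a : E ι) a' = if a' = a then 1 else 0 := by simp [bas]
@[simp] lemma norm_bas (a : ι) : ‖(bas a : E ι)‖ = 1 := by simp [bas]
@[simp] lemma inner_bas_left (a : ι) (x : E ι) : ⟪bas a, x⟫ = x a := by simp [bas, EuclideanSpace.inner_single_left]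
@[simp] lemma inner_bas_right (a : ι) (x : E ι) : ⟪x, bas a⟫ = x a := by simp [bas, EuclideanSpace.inner_single_right]
lemma sum_smul_bas (x : E ι) : ∑ a, x a • bas a = x := by
  classical
  ext i; simp [bas_coord]
lemma norm_sq_eq_sum (x : E ι) : ‖x‖ ^ 2 = ∑ a, x a ^ 2 :=
  EuclideanSpace.real_norm_sq_eq x
lemma inner_eq_sum (x y : E ι) : ⟪x, y⟫ = ∑ a, x a * y a := by simp [PiLp.inner_apply, mul_comm]
lemma abs_coord_le (x : E ι) (a : ι) : |x a| ≤ ‖x‖ := PiLp.norm_apply_le x a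
lemma clm_apply_eq_sum (M : E ι →L[ℝ] Y) (v : E ι) : M v = ∑ a, v a • M (bas a) := by
  conv_lhs => rw [← sum_smul_bas v]
  simp
lemma clm_ext_bas {M N : E ι →L[ℝ] Y} (h : ∀ a, M (bas a) = N (bas a)) : M = N := by
  ext1 v; simp only [clm_apply_eq_sum _ v, h]
lemma sum_norm_sq_adj (M : E α →L[ℝ] E β) :
    ∑ a, ‖M (bas a)‖ ^ 2 = ∑ o, ‖adj M (bas o)‖ ^ 2 := by
  simp only [norm_sq_eq_sum, adj_coord]
  exact Finset.sum_comm
/-- the operator norm is at most the Hilbert–Schmidt norm -/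
lemma norm_sq_le_sum (M : E ι →L[ℝ] Y) : ‖M‖ ^ 2 ≤ ∑ a, ‖M (bas a)‖ ^ 2 := by
  refine (Real.le_sqrt (norm_nonneg _) (by positivity)).1
    (M.opNorm_le_bound (Real.sqrt_nonneg _) fun v => ?_)
  rw [clm_apply_eq_sum, EuclideanSpace.norm_eq v, mul_comm]
  refine (norm_sum_le _ _).trans ?_
  simp only [norm_smul]
  exact Real.sum_mul_le_sqrt_mul_sqrt _ _ _

lemma chL_chB (n : ℕ) (u : E ι) : chL n (chB n u) = u := by
  cases n with
  | zero => rfl
  | succ n =>
    change fstL (sndL (inlL (chB n u) + inrL (inlL u) : E (chI ι n ⊕ (ι ⊕ ι)))) = u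
    simp
lemma norm_chL_le (n : ℕ) : ‖(chL n : E (chI ι n) →L[ℝ] E ι)‖ ≤ 1 := by
  cases n with
  | zero => exact ContinuousLinearMap.norm_id_le
  | succ n =>
    exact ((fstL : E (ι ⊕ ι) →L[ℝ] E ι).opNorm_comp_le
      (sndL : E (chI ι n ⊕ (ι ⊕ ι)) →L[ℝ] E (ι ⊕ ι))).trans
      (mul_le_one₀ norm_fstL_le (norm_nonneg _) norm_sndL_le)
lemma norm_ch_step (B : E ι →L[ℝ] E κ) :
    ‖(inlL.comp B + inrL.comp inlL : E ι →L[ℝ] E (κ ⊕ (ι ⊕ ι)))‖ ≤ ‖B‖ + 1 := by
  refine ContinuousLinearMap.opNorm_le_bound _ (by positivity) fun u => ?_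
  simp only [_root_.add_apply, ContinuousLinearMap.comp_apply, inlL_apply, inrL_apply,
    pair_add, add_zero, zero_add, add_mul, one_mul]
  exact (norm_pair_le _ _).trans (add_le_add (B.le_opNorm u) (norm_pair_zero_right u).le)
lemma norm_chB_le (n : ℕ) : ‖(chB n : E ι →L[ℝ] E (chI ι n))‖ ≤ n + 1 := by
  induction n with
  | zero => exact (ContinuousLinearMap.norm_id_le (E := E ι)).trans (by simp)
  | succ n ih => exact (norm_ch_step _).trans (by push_cast; linarith)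
lemma norm_chB'_le (n : ℕ) : ‖(chB' n : E ι →L[ℝ] E (chI ι n))‖ ≤ n := by
  induction n with
  | zero => exact (norm_zero (E := E ι →L[ℝ] E ι)).le.trans (by simp)
  | succ n ih => exact (norm_ch_step _).trans (by push_cast; linarith)
lemma card_chI (n : ℕ) : Fintype.card (chI ι n) = (2 * n + 1) * Fintype.card ι := by
  induction n with
  | zero => simp [chI]
  | succ n ih =>
    refine (Fintype.card_sum (α := chI ι n) (β := ι ⊕ ι)).trans ?_
    rw [ih, Fintype.card_sum]; ring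

section lip
variable {X Z : Type} [NormedAddCommGroup X] [NormedAddCommGroup Z]
omit [NormedSpace ℝ Y]
lemma Lip.mono {L L' : ℝ} {f : X → Y} (h : Lip L f) (hL : L ≤ L') : Lip L' f := fun x y =>
  (h x y).trans (mul_le_mul_of_nonneg_right hL (norm_nonneg _))
lemma Lip.continuous {L : ℝ} {f : X → Y} (h : Lip L f) : Continuous f :=
  (LipschitzWith.of_dist_le' fun x y => by simpa [dist_eq_norm] using h x y).continuous
lemma Lip.lipschitzWith {L : ℝ} {f : X → Y} (h : Lip L f) : LipschitzWith L.toNNReal f :=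
  LipschitzWith.of_dist_le' fun x y => by simpa [dist_eq_norm] using h x y
lemma Lip.of_lipschitzWith {L : NNReal} {f : X → Y} (h : LipschitzWith L f) : Lip L f := fun x y => h.norm_sub_le x y
lemma Lip.comp {L L' : ℝ} {f : X → Y} {g : Y → Z} (hg : Lip L' g) (hL' : 0 ≤ L') (hf : Lip L f) :
    Lip (L' * L) fun x => g (f x) := fun x y =>
  (hg _ _).trans (by rw [mul_assoc]; exact mul_le_mul_of_nonneg_left (hf x y) hL')
lemma Lip.add {L L' : ℝ} {f g : X → Y} (hf : Lip L f) (hg : Lip L' g) :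
    Lip (L + L') fun x => f x + g x := fun x y => by
  rw [add_sub_add_comm, add_mul]
  exact (norm_add_le _ _).trans (add_le_add (hf x y) (hg x y))
lemma Lip.sub {L L' : ℝ} {f g : X → Y} (hf : Lip L f) (hg : Lip L' g) :
    Lip (L + L') fun x => f x - g x := fun x y => by
  rw [sub_sub_sub_comm, add_mul]
  exact (norm_sub_le _ _).trans (add_le_add (hf x y) (hg x y))
lemma Lip.const (c : Y) : Lip 0 fun _ : X => c := fun _ _ => by simp
lemma Lip.id' : Lip 1 fun x : X => x := fun x y => by simp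
lemma Lip.norm' {L : ℝ} {f : X → Y} (h : Lip L f) : Lip L fun x => ‖f x‖ := fun x y =>
  (abs_norm_sub_norm_le _ _).trans (h x y)
lemma Lip.sum {I : Type} (s : Finset I) {L : I → ℝ} {f : I → X → Y} (h : ∀ i ∈ s, Lip (L i) (f i)) :
    Lip (∑ i ∈ s, L i) fun x => ∑ i ∈ s, f i x := fun x y => by
  rw [← Finset.sum_sub_distrib, Finset.sum_mul]
  exact (norm_sum_le _ _).trans (Finset.sum_le_sum fun i hi => h i hi x y)
lemma Lip.norm_le {L : ℝ} {f : X → Y} (h : Lip L f) (x : X) : ‖f x‖ ≤ ‖f 0‖ + L * ‖x‖ := by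
  have := h x 0
  rw [sub_zero] at this
  linarith [norm_sub_norm_le (f x) (f 0)]
lemma Lip.pair' {L L' : ℝ} {f : X → E ι} {g : X → E κ} (hf : Lip L f) (hg : Lip L' g) :
    Lip (L + L') fun x => pair (f x) (g x) := fun x y => by
  rw [pair_sub, add_mul]
  exact (norm_pair_le _ _).trans (add_le_add (hf x y) (hg x y))
end lip
lemma Lip.smul {X : Type} [NormedAddCommGroup X] {L : ℝ} {f : X → Y} (h : Lip L f) (c : ℝ) :
    Lip (|c| * L) fun x => c • f x := fun x y => by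
  rw [← smul_sub, norm_smul, mul_assoc]
  exact mul_le_mul_of_nonneg_left (h x y) (abs_nonneg c)
lemma Lip.clm (B : Y →L[ℝ] Y') : Lip ‖B‖ B := fun x y => by rw [← map_sub]; exact B.le_opNorm _
lemma Lip.pair_right (x : E ι) : Lip 1 fun y : E κ => pair x y := fun y z => by
  simp [norm_pair_zero_left]
lemma Lip.pair_left (y : E κ) : Lip 1 fun x : E ι => pair x y := fun y z => by
  simp [norm_pair_zero_right]
lemma Lip.of_fderiv {L : ℝ} {f : Y → Y'} (hf : Differentiable ℝ f) (h : ∀ x, ‖fderiv ℝ f x‖ ≤ L) :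
    Lip L f := fun x y =>
  convex_univ.norm_image_sub_le_of_norm_fderiv_le (fun z _ => hf z) (fun z _ => h z) trivial trivial
lemma Lip.norm_fderiv_le {L : ℝ} {f : Y → Y'} (h : Lip L f) (hL : 0 ≤ L) (x : Y) :
    ‖fderiv ℝ f x‖ ≤ L :=
  norm_fderiv_le_of_lip' ℝ hL (Eventually.of_forall fun y => h y x)


end Crest.Agent.R285
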