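/-!
# Row 285 (S0430): blueprint.  Sampling `exp (-V)`, `I ≤ ∇²V ≤ 2I`, with `C d^ε` gradient queries.

## Outer layer
`V = (3/4)‖x‖² + W` with `∇W` 1-Lipschitz; after a slowly varying cut-off `∇W` is bounded by `B₀ √d`
(`Cut1`, `Adm`, `Cut2`), and the target is the tilted Gaussian `tg W 0 √(2/3)`.  The proximal sampler with step
`δ = D^(-1/m)` contracts in `W₁` by `1 - δ/2` (`Prox`, `Outer`); a final small Gaussian turns `W₁` into total
variation (`TV`); `Trans` turns query programs `Comp` into `QueryAlg`; `Final` does the arithmetic.
What is needed is the restricted Gaussian oracle `tg W y √δ` with error `Λ^c δ^k √d` and cost `Λ^c` for every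
`k` (`Sample`), where `Λ = θ⁻¹`, `θ^ν ≤ δ ≪ θ^c` and `Λ` beats every function of `ν` (filter `evF`, `Ev`).

## Levels
`tg W y √s` is a mixture of `tg W x √(θ² s)` over `x ~ tg Ψ_{θ² s} y √(s - θ² s)` (`tg_semigroup`), where the
coarse-grained potential `Ψ_s = lz W s` is smooth at scale `√s` with dimension-free jet bounds (`Poinc`, `Tilt*`,
`Appell`, `GmMult`).  The normalised gradient `gate` of `Ψ_s` is the basic unknown function.  One level step
`stepM` is sampled by a chain of Hamiltonian arcs of angle `π` (`Arc1`, `Chain1/2`), each computed by high order
quadrature (`Quad`, `Taylor`, `Sob`, `Flow`, `Invar`) and Picard iteration (`Picard`) from the next gate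
(`Arc2`, `Unfold`).

## The calculus of good families
A family of maps is `Tame` if its derivative is `δ Λ^c`-small with all jets (`HS`, `Mult`, `TameOp`, `TameR`).
`Blur k F`: from an algorithm sampling `N(y, θ^(2c))` we get one sampling `N(F y, θ^(2c₁))` with error of order
`δ^k` (`Comp`, `Near`, `Sim`, `Bl`, `BlurR`).  `Good k` is the recursive class (tame, `Blur (k+1)`, and `DF`,
`DF†` have surrogates in `Good (k-1)` of every accuracy).  It is closed under linear maps, sums, composition
(`ClosedR`, `OpR`, `OpG`, `OpMul`, `PreR`) and Gaussian expectations: the fluctuation of `F (x, z)` in `z` is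
compensated by a measure preserving flow that mixes `z` with the output noise (`Rot`, `Core2`, `Core3`, `Level`).
The gate is good at every level (`Gate0`, `GateOp`, `GateStr`, `HistL`, `Seed`, `GateBlur`, `Gate`): the
compensation lemma expresses `gate + noise` through boundedly many next-level gates with coefficients smaller
by `θ`, at locations that can be blurred to one order less.

## Rules for contributors
Each file has one owner (table `tasks`, rid 285).  Fill in the `sorry`s of your file; keep every statement
and name (you may add lemmas, private helpers, or new files `R285/<YourFile>Aux*.lean`, and add imports of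
files that do not depend on yours).  You may use the (possibly still sorried) lemmas of the files you import.
`Defs.lean` is frozen.  If a statement is false or awkward, message helper48 at once.
Do not `open ContDiff` together with a variable named `ω`; existential constants `C : ℕ → ℝ` may be as large as
you like.
-/
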