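import Mathlib
import Crest.Prelude.Def_OracleSampling

/-!
# Row 285 (S0430): definitions.  FROZEN: do not edit (owner helper48).
See `Crest/Agent/R285/Blueprint.lean` for the proof plan.
-/

set_option autoImplicit false

open MeasureTheory ProbabilityTheory Filter Topology
open scoped RealInnerProductSpace

noncomputable section

namespace Crest.Agent.R285

/-! ## Euclidean spaces -/

/-- Euclidean space with coordinates indexed by `ι`. -/
abbrev E (ι : Type) : Type := EuclideanSpace ℝ ι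

/-- standard Gaussian measure -/
abbrev γ (ι : Type) [Fintype ι] : Measure (E ι) := stdGaussian (E ι)

/-- smooth with all derivatives of polynomial growth -/
abbrev TG {X Y : Type} [NormedAddCommGroup X] [NormedSpace ℝ X] [NormedAddCommGroup Y]
    [NormedSpace ℝ Y] (f : X → Y) : Prop := Function.HasTemperateGrowth f

/-- Lipschitz with a real constant -/
def Lip {X Y : Type} [NormedAddCommGroup X] [NormedAddCommGroup Y] (L : ℝ) (f : X → Y) : Prop :=
  ∀ x y, ‖f x - f y‖ ≤ L * ‖x - y‖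

/-- `L²` norm at most `r` -/
def L2le {Ω Y : Type} [MeasurableSpace Ω] [NormedAddCommGroup Y] (μ : Measure Ω) (f : Ω → Y)
    (r : ℝ) : Prop :=
  AEStronglyMeasurable f μ ∧ eLpNorm f 2 μ ≤ ENNReal.ofReal r

section euclid

variable {ι κ α β : Type} [Fintype ι] [Fintype κ] [Fintype α] [Fintype β]

open Classical in
/-- basis vector -/
def bas (a : ι) : E ι := EuclideanSpace.single a 1

/-- concatenation of two vectors -/
def pair (x : E ι) (y : E κ) : E (ι ⊕ κ) := WithLp.toLp 2 (Sum.elim x y)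

/-- first block of coordinates -/
def fstL : E (ι ⊕ κ) →L[ℝ] E ι := LinearMap.toContinuousLinearMap
  { toFun := fun z => WithLp.toLp 2 fun i => z (Sum.inl i)
    map_add' := fun _ _ => by ext; simp
    map_smul' := fun _ _ => by ext; simp }

/-- second block of coordinates -/
def sndL : E (ι ⊕ κ) →L[ℝ] E κ := LinearMap.toContinuousLinearMap
  { toFun := fun z => WithLp.toLp 2 fun i => z (Sum.inr i)
    map_add' := fun _ _ => by ext; simp
    map_smul' := fun _ _ => by ext; simp }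

/-- `x ↦ pair x 0` -/
def inlL : E ι →L[ℝ] E (ι ⊕ κ) := LinearMap.toContinuousLinearMap
  { toFun := fun x => pair x 0
    map_add' := fun _ _ => by ext i; cases i <;> simp [pair]
    map_smul' := fun _ _ => by ext i; cases i <;> simp [pair] }

/-- `y ↦ pair 0 y` -/
def inrL : E κ →L[ℝ] E (ι ⊕ κ) := LinearMap.toContinuousLinearMap
  { toFun := fun y => pair 0 y
    map_add' := fun _ _ => by ext i; cases i <;> simp [pair]
    map_smul' := fun _ _ => by ext i; cases i <;> simp [pair] }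

/-- adjoint (transpose) -/
def adj (M : E α →L[ℝ] E β) : E β →L[ℝ] E α := ContinuousLinearMap.adjoint M

variable {Y : Type} [NormedAddCommGroup Y] [NormedSpace ℝ Y]

/-- partial derivative -/
def pd (a : ι) (f : E ι → Y) (x : E ι) : Y := fderiv ℝ f x (bas a)

/-- `∑_{i ≤ n} r^(2i) |D^i f x|²_{HS}`: squared Hilbert–Schmidt jet norm at length scale `r` -/
def HS (r : ℝ) : ℕ → (E ι → Y) → E ι → ℝ
  | 0, f, x => ‖f x‖ ^ 2
  | n + 1, f, x => ‖f x‖ ^ 2 + r ^ 2 * ∑ a, HS r n (pd a f) x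

/-- multiplier bound for an operator field -/
def Mult (r m : ℝ) (n : ℕ) (M : E ι → (E α →L[ℝ] E β)) : Prop :=
  ∀ x v, HS r n (fun z => M z v) x ≤ m ^ 2 * ‖v‖ ^ 2

/-- the probability measure with density proportional to `exp (-Φ)` -/
def gibbs (Φ : E ι → ℝ) : Measure (E ι) := (volume : Measure (E ι)).tilted fun x => -Φ x

/-- smooth confining potential -/
def NicePot (Φ : E ι → ℝ) : Prop :=
  Differentiable ℝ Φ ∧ TG (gradient Φ) ∧ ∃ c : ℝ, 0 < c ∧ ∃ C : ℝ, ∀ x, c * ‖x‖ ^ 2 - C ≤ Φ x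

/-- the adjoint of the gradient in `L²(gibbs Φ)` -/
def divs (Φ : E ι → ℝ) (u : ι → E ι → Y) (x : E ι) : Y :=
  ∑ a, (gradient Φ x a • u a x - pd a (u a) x)

/-- the vector field attached to an (antisymmetric) operator field -/
def vf (Φ : E ι → ℝ) (J : E ι → (E ι →L[ℝ] E ι)) : E ι → E ι :=
  divs Φ fun a x => J x (bas a)

/-- derivative along a vector field -/
def Lie (b : E ι → E ι) (φ : E ι → Y) (x : E ι) : Y := fderiv ℝ φ x (b x)

/-- global flow of a vector field -/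
structure IsFlow (b : E ι → E ι) (X : ℝ → E ι → E ι) : Prop where
  cont : Continuous (Function.uncurry X)
  zero : ∀ x, X 0 x = x
  deriv : ∀ t x, HasDerivAt (fun s => X s x) (b (X t x)) t

/-- the Gaussian `N(u, σ² I)` -/
def gs (u : E ι) (σ : ℝ) : Measure (E ι) := (γ ι).map fun z => u + σ • z

/-- tilted Gaussian: density proportional to `exp (-ψ)` with respect to `N(u, σ² I)` -/
def tg (ψ : E ι → ℝ) (u : E ι) (σ : ℝ) : Measure (E ι) := (gs u σ).tilted fun x => -ψ x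

/-- `C¹` potential with `lam`-Lipschitz gradient bounded by `B` -/
structure BP (ψ : E ι → ℝ) (lam B : ℝ) : Prop where
  diff : Differentiable ℝ ψ
  lam_nonneg : 0 ≤ lam
  lip : Lip lam (gradient ψ)
  bdd : ∀ x, ‖gradient ψ x‖ ≤ B

/-- coarse-grained potential `Ψ_s = - log (exp (-W) * N(0, s))` -/
def lz (W : E ι → ℝ) (s : ℝ) (y : E ι) : ℝ := -Real.log (∫ x, Real.exp (-W x) ∂(gs y √s))

/-- its gradient: the tilted mean of `∇W` -/
def gm (W : E ι → ℝ) (s : ℝ) (y : E ι) : E ι := ∫ x, gradient W x ∂(tg W y √s)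

/-- the half squared norm, `γ = gibbs hsq` -/
def hsq (x : E ι) : ℝ := ‖x‖ ^ 2 / 2

/-- rotation of two copies by the angle `t` -/
def rotX (t : ℝ) (z : E (ι ⊕ ι)) : E (ι ⊕ ι) :=
  pair (Real.cos t • fstL z + Real.sin t • sndL z) (-Real.sin t • fstL z + Real.cos t • sndL z)

/-- generator of the rotation -/
def rotB (z : E (ι ⊕ ι)) : E (ι ⊕ ι) := pair (sndL z) (-fstL z)

/-- Wasserstein-1 closeness in dual form -/
def Near (m₁ m₂ : Measure (E ι)) (η : ℝ) : Prop :=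
  ∀ f : E ι → ℝ, Lip 1 f → (∃ C, ∀ x, |f x| ≤ C) → |∫ x, f x ∂m₁ - ∫ x, f x ∂m₂| ≤ η

/-- Picard iteration for the system `x i = lin i X + ∑ l, w i l • g (A X + C (x l))`; the value is the
correction `x i - lin i X`. -/
def pic {I ζ : Type} [Fintype I] [Fintype ζ] (g : E ζ → E κ) (A : E ι →L[ℝ] E ζ)
    (C : E κ →L[ℝ] E ζ) (lin : I → (E ι →L[ℝ] E κ)) (w : I → I → ℝ) : ℕ → I → E ι → E κ
  | 0, _, _ => 0
  | r + 1, i, X => ∑ l, w i l • g (A X + C (lin l X + pic g A C lin w r l X))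

/-- the measure of one Hamiltonian arc: `tg ψ u σ ⊗ N(u,σ²) ⊗ N(0,σ²)` -/
def arcM (ν : Measure (E ι)) (u : E ι) (σ : ℝ) : Measure (E (ι ⊕ (ι ⊕ ι))) :=
  (ν.prod ((gs u σ).prod (gs (0 : E ι) σ))).map fun p => pair p.1 (pair p.2.1 p.2.2)

/-- `τ` is an exact arc map for `ν`: it preserves `ν`, jointly with the conserved quantity -/
def ArcLaw (ν : Measure (E ι)) (u : E ι) (σ : ℝ) (τ : E (ι ⊕ (ι ⊕ ι)) → E ι) : Prop :=
  (arcM ν u σ).map (fun X => (τ X, fstL X + fstL (sndL X))) =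
    (ν.prod (gs u σ)).map fun p => (p.1, p.1 + p.2)

end euclid

/-- coordinates of a chain of `n` arcs -/
def chI (ι : Type) : ℕ → Type
  | 0 => ι
  | n + 1 => chI ι n ⊕ (ι ⊕ ι)

instance chI.fintype (ι : Type) [Fintype ι] : ∀ n, Fintype (chI ι n)
  | 0 => ‹Fintype ι›
  | n + 1 => @instFintypeSum _ _ (chI.fintype ι n) inferInstance

section chain

variable {ι : Type} [Fintype ι]

/-- chain of `n` approximate arcs -/
def chT (τs : E (ι ⊕ (ι ⊕ ι)) → E ι) : ∀ n, E (chI ι n) → E ι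
  | 0 => fun X => X
  | n + 1 => fun X : E (chI ι n ⊕ (ι ⊕ ι)) =>
      fstL (sndL X) + τs (pair (chT τs n (fstL X)) (sndL X))

/-- linear part of `chT` -/
def chL : ∀ n, E (chI ι n) →L[ℝ] E ι
  | 0 => ContinuousLinearMap.id ℝ (E ι)
  | n + 1 => (fstL.comp sndL : E (chI ι n ⊕ (ι ⊕ ι)) →L[ℝ] E ι)

/-- the centre `u` is added to all position variables -/
def chB : ∀ n, E ι →L[ℝ] E (chI ι n)
  | 0 => ContinuousLinearMap.id ℝ (E ι)
  | n + 1 => (inlL.comp (chB n) + inrL.comp inlL : E ι →L[ℝ] E (chI ι n ⊕ (ι ⊕ ι)))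

/-- the same without the starting point -/
def chB' : ∀ n, E ι →L[ℝ] E (chI ι n)
  | 0 => (0 : E ι →L[ℝ] E ι)
  | n + 1 => (inlL.comp (chB' n) + inrL.comp inlL : E ι →L[ℝ] E (chI ι n ⊕ (ι ⊕ ι)))

end chain

/-- A piecewise polynomial interpolation scheme of order `K` on `[0,T]` with mesh `ρ`. -/
structure Quad (K : ℕ) (T ρ C : ℝ) where
  N : ℕ
  t : Fin N → ℝ
  ℓ : Fin N → ℝ → ℝ
  base : ℝ → ℝ
  card_le : (N : ℝ) ≤ K * (T / ρ + 1)
  t_mem : ∀ l, t l ∈ Set.Icc 0 T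
  meas : ∀ l, Measurable (ℓ l)
  sum_le : ∀ s, ∑ l, |ℓ l s| ≤ C
  base_near : ∀ s ∈ Set.Icc 0 T, |s - base s| ≤ ρ
  node_near : ∀ s ∈ Set.Icc 0 T, ∀ l, ℓ l s ≠ 0 → |t l - base s| ≤ ρ
  exact : ∀ s ∈ Set.Icc 0 T, ∀ i < K, ∑ l, ℓ l s * (t l - base s) ^ i = (s - base s) ^ i

/-! ## Query algorithms -/

/-- `F o` is computed from its argument with `n` adaptive queries to the oracle `o`. -/
def Comp (Q Y : Type) [MeasurableSpace Q] [MeasurableSpace Y] :
    ℕ → ∀ (X : Type) [MeasurableSpace X], ((Q → Q) → X → Y) → Prop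
  | 0, X, _, F => ∃ f : X → Y, Measurable f ∧ ∀ o, F o = f
  | n + 1, X, _, F => ∃ (qr : X → Q) (G : (Q → Q) → X × Q → Y),
      Measurable qr ∧ Comp Q Y n (X × Q) G ∧ ∀ o x, F o x = G o (x, o (qr x))

/-- The parameters: dimension `d`, gain `δ`, scale ratio `θ`, and `ν` with `θ^ν ≤ δ`. -/
structure Base where
  d : ℕ
  δ : ℝ
  θ : ℝ
  ν : ℕ
  hd : 1 ≤ d
  hθ : 0 < θ
  hθ1 : θ ≤ 1
  hδ : θ ^ ν ≤ δ

/-- the loss parameter -/
def Base.Λ (b : Base) : ℝ := b.θ⁻¹

/-- the error of order `a` -/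
def Base.e (b : Base) (a : ℕ) : ℝ := b.δ ^ a * √(b.d : ℝ)

/-- admissible potentials of the inner problem -/
structure Pot (b : Base) where
  W : E (Fin b.d) → ℝ
  bp : BP W 1 (b.Λ * √(b.d : ℝ))

section sim

variable (b : Base) {In κ : Type} [MeasurableSpace In] [Fintype κ]

/-- some randomised algorithm with at most `q` gradient queries simulates the kernel `K` up to the
error `η` -/
def Sim (K : Pot b → In → Measure (E κ)) (η : Pot b → In → ℝ) (q : ℝ) : Prop :=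
  ∃ (Ω : Type) (_ : MeasurableSpace Ω) (μ : Measure Ω) (_ : IsProbabilityMeasure μ) (n : ℕ)
    (F : (E (Fin b.d) → E (Fin b.d)) → In × Ω → E κ),
    (n : ℝ) ≤ q ∧ Comp (E (Fin b.d)) (E κ) n (In × Ω) F ∧
      ∀ W w, Near (μ.map fun ω => F (gradient W.W) (w, ω)) (K W w) (η W w)

/-- the (unknown) vector `y` can be blurred at scale `s` -/
def Bl (y : Pot b → In → E κ) (s : ℝ) (η : Pot b → In → ℝ) (q : ℝ) : Prop :=
  Sim b (fun W w => gs (y W w) s) η q

/-- graded blurring algorithms for a location, see `Hist.lean` -/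
def Hist (k : ℕ) (cs : ℕ → ℕ) (cB : ℕ) (u : Pot b → In → E κ) (Ef η : Pot b → In → ℝ) (q : ℝ) :
    Prop :=
  ∀ j, 1 ≤ j → j ≤ k + 1 → Bl b u (b.θ ^ cs j)
    (fun W w => b.Λ ^ (cB * j) * (b.δ ^ j * Ef W w + η W w)) (b.Λ ^ (cB * j) * (1 + q))

end sim

/-! ## Families -/

/-- the asymptotic regime: `δ ≪ θ^c` for every `c`, `θ⁻¹` beats every function of `ν` -/
def evF : Filter Base where
  sets := {S | ∃ (c : ℕ) (C : ℕ → ℝ), ∀ b : Base, b.δ ≤ b.θ ^ c → C b.ν * b.θ ≤ 1 → b ∈ S}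
  univ_sets := ⟨0, fun _ => 0, fun _ _ _ => trivial⟩
  sets_of_superset := by
    rintro S T ⟨c, C, h⟩ hST
    exact ⟨c, C, fun b h1 h2 => hST (h b h1 h2)⟩
  inter_sets := by
    rintro S T ⟨c, C, h⟩ ⟨c', C', h'⟩
    refine ⟨max c c', fun n => max (C n) (C' n), fun b h1 h2 => ⟨h b ?_ ?_, h' b ?_ ?_⟩⟩
    · exact h1.trans (pow_le_pow_of_le_one b.hθ.le b.hθ1 (le_max_left _ _))
    · exact (mul_le_mul_of_nonneg_right (le_max_left _ _) b.hθ.le).trans h2
    · exact h1.trans (pow_le_pow_of_le_one b.hθ.le b.hθ1 (le_max_right _ _))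
    · exact (mul_le_mul_of_nonneg_right (le_max_right _ _) b.hθ.le).trans h2

section fam

variable {P : Type} (b : P → Base)

/-- the regime on an index set -/
def ev : Filter P := evF.comap b

/-- families of maps -/
abbrev Fam (ι κ : P → Type) : Type := ∀ p, Pot (b p) → E (ι p) → E (κ p)

/-- families of operator fields -/
abbrev OFam (ι α β : P → Type) [∀ p, Fintype (α p)] [∀ p, Fintype (β p)] : Type :=
  ∀ p, Pot (b p) → E (ι p) → (E (α p) →L[ℝ] E (β p))

/-- polynomially bounded real family -/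
def Poly (x : P → ℝ) : Prop := ∃ c : ℕ, ∀ᶠ p in ev b, |x p| ≤ (b p).Λ ^ c

/-- dimension at most `poly(Λ) d` -/
def Dim (ι : P → Type) [∀ p, Fintype (ι p)] : Prop :=
  ∃ c : ℕ, ∀ᶠ p in ev b, (Fintype.card (ι p) : ℝ) ≤ (b p).Λ ^ c * (b p).d

variable {ι κ α β : P → Type} [∀ p, Fintype (ι p)] [∀ p, Fintype (κ p)] [∀ p, Fintype (α p)]
  [∀ p, Fintype (β p)]

/-- the adjoint family -/
def OFam.adj (M : OFam b ι α β) : OFam b ι β α := fun p W x => R285.adj (M p W x)

/-- the derivative family -/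
def Fam.D (F : Fam b ι κ) : OFam b ι ι κ := fun p W x => fderiv ℝ (F p W) x

/-- small operator field, smooth at scale `θ^c` -/
structure TameOp (M : OFam b ι α β) : Prop where
  dimI : Dim b ι
  dimA : Dim b α
  dimB : Dim b β
  tg : ∀ᶠ p in ev b, ∀ W, TG (M p W)
  mult : ∃ c : ℕ, ∀ n : ℕ → ℕ, ∀ᶠ p in ev b, ∀ W,
    Mult ((b p).θ ^ c) ((b p).δ * (b p).Λ ^ c) (n (b p).ν) (M p W) ∧
      Mult ((b p).θ ^ c) ((b p).δ * (b p).Λ ^ c) (n (b p).ν) fun x => adj (M p W x)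

/-- map with small tame derivative -/
structure Tame (F : Fam b ι κ) : Prop where
  tg : ∀ᶠ p in ev b, ∀ W, TG (F p W)
  op : TameOp b (Fam.D b F)

/-- blurring the output from blurring the input, to order `k` -/
def Blur (k : ℕ) (F : Fam b ι κ) : Prop :=
  ∀ c₁ : ℕ, ∃ c : ℕ, ∀ᶠ p in ev b, ∀ (In : Type) [MeasurableSpace In]
    (y : Pot (b p) → In → E (ι p)) (η : Pot (b p) → In → ℝ) (q : ℝ),
    Bl (b p) y ((b p).θ ^ c) η q →
      Bl (b p) (fun W w => F p W (y W w)) ((b p).θ ^ c₁)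
        (fun W w => (b p).Λ ^ c * ((b p).e k + (b p).δ * η W w)) ((b p).Λ ^ c * (1 + q))

/-- `S (x, g)` approximates `M x g` in `L²` of the Gaussian direction `g`, to order `a` -/
def Acc (a : ℕ) (S : Fam b (fun p => ι p ⊕ α p) β) (M : OFam b ι α β) : Prop :=
  ∃ c : ℕ, ∀ᶠ p in ev b, ∀ W x,
    L2le (γ (α p)) (fun g => S p W (pair x g) - M p W x g) ((b p).Λ ^ c * (b p).e a)

end fam

/-- The main class.  `Good k F`: tame, blurrable to order `k+1`, and (recursively) the derivative and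
its adjoint have surrogates in `Good (k-1)` of every accuracy. -/
def Good : ℕ → ∀ {P : Type} (b : P → Base) {ι κ : P → Type} [∀ p, Fintype (ι p)]
    [∀ p, Fintype (κ p)], Fam b ι κ → Prop
  | 0, _, b, _, _, _, _, F => Tame b F ∧ Blur b 1 F
  | k + 1, _, b, ι, κ, _, _, F => Good k b F ∧
      (∀ a, ∃ S : Fam b (fun p => ι p ⊕ ι p) κ, Good k b S ∧ Acc b a S (Fam.D b F)) ∧
      (∀ a, ∃ S : Fam b (fun p => ι p ⊕ κ p) ι, Good k b S ∧
        Acc b a S (OFam.adj b (Fam.D b F))) ∧ Blur b (k + 2) F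

section fam2

variable (k : ℕ) {P : Type} (b : P → Base) {ι κ α β : P → Type} [∀ p, Fintype (ι p)]
  [∀ p, Fintype (κ p)] [∀ p, Fintype (α p)] [∀ p, Fintype (β p)]

/-- surrogate of accuracy `a` -/
def OpA (a : ℕ) (M : OFam b ι α β) : Prop :=
  ∃ S : Fam b (fun p => ι p ⊕ α p) β, Good k b S ∧ Acc b a S M

/-- tame operator field with surrogates of accuracy `a` for itself and its adjoint -/
structure OpG (a : ℕ) (M : OFam b ι α β) : Prop where
  tame : TameOp b M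
  op : OpA k b a M
  opT : OpA k b a (OFam.adj b M)

/-- `Good (k+1)` without the blurring statement -/
def Pre (F : Fam b ι κ) : Prop := Good k b F ∧ ∀ a, OpG k b a (Fam.D b F)

end fam2

/-- the type of properties of families of maps -/
abbrev FamProp : Type 1 := ∀ {P : Type} (b : P → Base) {ι κ : P → Type} [∀ p, Fintype (ι p)]
  [∀ p, Fintype (κ p)], Fam b ι κ → Prop

/-- closure rules -/
structure Closed (Q : FamProp) : Prop where
  tame : ∀ {P : Type} {b : P → Base} {ι κ : P → Type} [∀ p, Fintype (ι p)] [∀ p, Fintype (κ p)]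
    {F : Fam b ι κ}, Q b F → Tame b F
  reindex : ∀ {P P' : Type} {b : P → Base} {ι κ : P → Type} [∀ p, Fintype (ι p)]
    [∀ p, Fintype (κ p)] {F : Fam b ι κ} (r : P' → P), Q b F →
    Q (fun p => b (r p)) (ι := fun p => ι (r p)) (κ := fun p => κ (r p)) fun p => F (r p)
  congr : ∀ {P : Type} {b : P → Base} {ι κ : P → Type} [∀ p, Fintype (ι p)] [∀ p, Fintype (κ p)]
    {F F' : Fam b ι κ}, (∀ᶠ p in ev b, ∀ W, F p W = F' p W) → Q b F → Q b F'
  zero : ∀ {P : Type} {b : P → Base} {ι κ : P → Type} [∀ p, Fintype (ι p)] [∀ p, Fintype (κ p)],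
    Dim b ι → Dim b κ → Q b (ι := ι) (κ := κ) fun _ _ _ => 0
  lin : ∀ {P : Type} {b : P → Base} {ι κ κ' : P → Type} [∀ p, Fintype (ι p)] [∀ p, Fintype (κ p)]
    [∀ p, Fintype (κ' p)] {F : Fam b ι κ} {B : ∀ p, E (κ p) →L[ℝ] E (κ' p)},
    Poly b (fun p => ‖B p‖) → Dim b κ' → Q b F → Q b (κ := κ') fun p W x => B p (F p W x)
  add : ∀ {P : Type} {b : P → Base} {ι κ : P → Type} [∀ p, Fintype (ι p)] [∀ p, Fintype (κ p)]
    {F F' : Fam b ι κ}, Q b F → Q b F' → Q b fun p W x => F p W x + F' p W x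
  sum : ∀ {P : Type} {b : P → Base} {ι κ I : P → Type} [∀ p, Fintype (ι p)] [∀ p, Fintype (κ p)]
    [∀ p, Fintype (I p)]
    {F : Fam (fun p : Σ p, I p => b p.1) (fun p => ι p.1) (fun p => κ p.1)},
    Poly b (fun p => (Fintype.card (I p) : ℝ)) → Dim b ι → Dim b κ →
    Q (fun p : Σ p, I p => b p.1) F → Q b (ι := ι) (κ := κ) fun p W x => ∑ i, F ⟨p, i⟩ W x
  comp : ∀ {P : Type} {b : P → Base} {ι κ ζ : P → Type} [∀ p, Fintype (ι p)] [∀ p, Fintype (κ p)]
    [∀ p, Fintype (ζ p)] {F : Fam b ζ κ} {y : Fam b ι ζ} {B : ∀ p, E (ι p) →L[ℝ] E (ζ p)},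
    Poly b (fun p => ‖B p‖) → Q b y → Q b F →
    Q b (ι := ι) fun p W x => F p W (B p x + y p W x)

/-- closure under Gaussian expectation -/
def ExpClosed (Q : FamProp) : Prop :=
  ∀ {P : Type} {b : P → Base} {ι κ ζ : P → Type} [∀ p, Fintype (ι p)] [∀ p, Fintype (κ p)]
    [∀ p, Fintype (ζ p)] {F : Fam b (fun p => ι p ⊕ ζ p) κ}, Q b F →
    Q b (ι := ι) fun p W x => ∫ z, F p W (pair x z) ∂(γ (ζ p))

/-- all rules hold at level `k` -/
structure Lvl (k : ℕ) : Prop where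
  closed : Closed (@Good k)
  exp : ExpClosed (@Good k)

/-! ## The gates -/

/-- index set of the gates: a base and a variance `s ∈ (0, δ]` -/
abbrev GI : Type := Σ b : Base, {s : ℝ // 0 < s ∧ s ≤ b.δ}

/-- base of a gate index -/
abbrev gb : GI → Base := fun p => p.1

/-- coordinates of the ambient space -/
abbrev gd : GI → Type := fun p => Fin p.1.d

/-- the next finer level -/
def GI.next (p : GI) : GI :=
  ⟨p.1, ⟨p.1.θ ^ 2 * p.2.1, mul_pos (pow_pos p.1.hθ 2) p.2.2.1,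
    (mul_le_of_le_one_left p.2.2.1.le (pow_le_one₀ p.1.hθ.le p.1.hθ1)).trans p.2.2.2⟩⟩

/-- the normalised gate `(δ/√s) ∇Ψ_s (√s u)` -/
def gate : Fam gb gd gd := fun p W u => (p.1.δ / √p.2.1) • gm W.W p.2.1 (√p.2.1 • u)

/-- `σ = √(1-θ²)` -/
def Base.σ (b : Base) : ℝ := √(1 - b.θ ^ 2)

/-- the potential of one level step, in normalised units -/
def stepPot (p : GI) (W : Pot p.1) (z : E (Fin p.1.d)) : ℝ :=
  lz W.W (p.1.θ ^ 2 * p.2.1) (√p.2.1 • z)

/-- the law of one level step -/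
def stepM (p : GI) (W : Pot p.1) (u : E (Fin p.1.d)) : Measure (E (Fin p.1.d)) :=
  tg (stepPot p W) u p.1.σ

/-- the next gate in the units of the present level -/
def gateN : Fam gb gd gd := fun p W z => p.1.θ • gate p.next W (p.1.Λ • z)

end Crest.Agent.R285
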